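import Vale.Agent.P132N34.C

/-! Positive functionals that are order continuous on projections are vector functionals of the
amplification. -/

set_option linter.all false

namespace Vale.Agent.P132N34

open Filter Topology Vale.Agent.P132
open scoped ComplexOrder InnerProductSpace ComplexConjugate

universe u

variable {H : Type u} [NormedAddCommGroup H] [InnerProductSpace ℂ H] [CompleteSpace H]
variable {M : VonNeumannAlgebra H} {ψ : (H →L[ℂ] H) →ₗ[ℂ] ℂ}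

theorem glue (V : ℕ → EllTwo H) (hV : Summable fun k => ‖V k‖ ^ 2) :
    ∃ U : EllTwo H, ∀ x : H →L[ℂ] H, HasSum (fun k => ‖amp x (V k)‖ ^ 2) (‖amp x U‖ ^ 2) := by
  obtain ⟨e⟩ : Nonempty (ℕ ≃ ℕ × ℕ) := ⟨Nat.pairEquiv.symm⟩
  obtain ⟨a, ha⟩ : ∃ a : ℕ × ℕ → H, ∀ k i, a (k, i) = V k i := ⟨fun p => V p.1 p.2, fun _ _ => rfl⟩
  have h0 : ∀ (x : H →L[ℂ] H) k, HasSum (fun i => ‖x (a (k, i))‖ ^ 2) (‖amp x (V k)‖ ^ 2) :=
    fun x k => by
      have := L2_norm_sq (amp x (V k))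
      simp only [amp_apply, ← ha] at this
      exact this
  have h0' : ∀ k, HasSum (fun i => ‖a (k, i)‖ ^ 2) (‖V k‖ ^ 2) := fun k => by
    have := L2_norm_sq (V k)
    simp only [← ha] at this
    exact this
  have h1 : Summable fun p : ℕ × ℕ => ‖a p‖ ^ 2 := by
    rw [summable_prod_of_nonneg fun _ => sq_nonneg _]
    exact ⟨fun k => (h0' k).summable, hV.congr fun k => (h0' k).tsum_eq.symm⟩
  have h2 : Summable fun n => ‖a (e n)‖ ^ 2 :=
    (e.summable_iff (f := fun p : ℕ × ℕ => ‖a p‖ ^ 2)).2 h1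
  obtain ⟨U, hU⟩ : ∃ U : EllTwo H, ∀ n, U n = a (e n) :=
    ⟨⟨fun n => a (e n), (memℓp_two_iff _).2 h2⟩, fun _ => rfl⟩
  refine ⟨U, fun x => ?_⟩
  have h3 := L2_norm_sq (amp x U)
  simp only [amp_apply, hU] at h3
  exact HasSum.prod_fiberwise ((e.hasSum_iff (f := fun p : ℕ × ℕ => ‖x (a p)‖ ^ 2)).1 h3) (h0 x)

/-- the seminorm of `ψ` -/
noncomputable def Nm (ψ : (H →L[ℂ] H) →ₗ[ℂ] ℂ) (x : H →L[ℂ] H) : ℝ :=
  Real.sqrt (ψ (star x * x)).re

theorem Nm_nonneg (x : H →L[ℂ] H) : 0 ≤ Nm ψ x := Real.sqrt_nonneg _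

theorem Nm_neg (x : H →L[ℂ] H) : Nm ψ (-x) = Nm ψ x := by
  rw [Nm, Nm, star_neg, neg_mul_neg]

theorem Nm_zero : Nm ψ 0 = 0 := by simp [Nm]

theorem dm_iff {g : H →L[ℂ] H} :
    Dm M ψ g ↔ ∃ V : EllTwo H, ∀ x ∈ M, Nm ψ (x * g) ≤ ‖amp x V‖ :=
  exists_congr fun V => forall₂_congr fun x _ => (Real.sqrt_le_left (norm_nonneg _)).symm

variable (hψ : PosOn M ψ)
include hψ

theorem Nm_sq {x : H →L[ℂ] H} (hx : x ∈ M) : Nm ψ x ^ 2 = (ψ (star x * x)).re :=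
  Real.sq_sqrt (hψ _ (mul_mem (star_mem hx) hx) (star_mul_self_nonneg _)).1

theorem Nm_cs {x y : H →L[ℂ] H} (hx : x ∈ M) (hy : y ∈ M) :
    (ψ (star x * y)).re ≤ Nm ψ x * Nm ψ y := by
  refine (Complex.re_le_norm _).trans ((sq_le_sq₀ (norm_nonneg _)
    (mul_nonneg (Nm_nonneg _) (Nm_nonneg _))).1 ?_)
  rw [mul_pow, Nm_sq hψ hx, Nm_sq hψ hy]
  exact hψ.cauchy hy hx

theorem Nm_add {x y : H →L[ℂ] H} (hx : x ∈ M) (hy : y ∈ M) :
    Nm ψ (x + y) ≤ Nm ψ x + Nm ψ y := by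
  refine (Real.sqrt_le_left (add_nonneg (Nm_nonneg _) (Nm_nonneg _))).2 ?_
  have h1 := Nm_cs hψ hx hy
  have h2 := Nm_cs hψ hy hx
  rw [star_add, add_mul, mul_add, mul_add, map_add, map_add, map_add, Complex.add_re,
    Complex.add_re, Complex.add_re, ← Nm_sq hψ hx, ← Nm_sq hψ hy]
  nlinarith only [h1, h2]

theorem Nm_mul {x y : H →L[ℂ] H} (hx : x ∈ M) (hy : y ∈ M) :
    Nm ψ (x * y) ≤ ‖x‖ * Nm ψ y := by
  refine (Real.sqrt_le_left (mul_nonneg (norm_nonneg _) (Nm_nonneg _))).2 ?_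
  have h1 : star y * (star x * x) * y ≤ ‖star x * x‖ • (star y * y) :=
    CStarAlgebra.star_left_conjugate_le_norm_smul (IsSelfAdjoint.star_mul_self x)
  rw [← Complex.coe_smul] at h1
  have h2 := hψ.mono (mul_mem (mul_mem (star_mem hy) (mul_mem (star_mem hx) hx)) hy)
    (M.toStarSubalgebra.smul_mem (mul_mem (star_mem hy) hy) _) h1
  rw [map_smul, smul_eq_mul, Complex.re_ofReal_mul, CStarRing.norm_star_mul_self,
    ← Nm_sq hψ hy] at h2
  rw [star_mul, mul_pow, sq ‖x‖]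
  simpa only [mul_assoc] using h2

theorem rn' {g : H →L[ℂ] H} (hg : g ∈ M) (h : Dm M ψ g) :
    ∃ W : EllTwo H, ∀ x ∈ M, Nm ψ (x * g) = ‖amp x W‖ := by
  obtain ⟨W, hW⟩ := rn hψ hg h
  refine ⟨W, fun x hx => ?_⟩
  have h1 := hW _ (mul_mem (star_mem hx) hx)
  have h2 : ⟪W, amp (star x * x) W⟫_ℂ = ⟪amp x W, amp x W⟫_ℂ := by
    rw [← star_star (amp x), star_apply_inner, star_star, ← amp_star]
    rfl
  rw [Nm, star_mul, mul_assoc, ← mul_assoc (star x), h1, h2, inner_self_re,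
    Real.sqrt_sq (norm_nonneg _)]

theorem dm_sum {g : H →L[ℂ] H} (hg : g ∈ M) {q : ℕ → H →L[ℂ] H} (hq : ∀ k, q k ∈ M)
    (hd : ∀ k, Dm M ψ (q k)) {C : ℝ} (hC : ∀ k, Nm ψ (q k) ≤ C * (1 / 4) ^ k)
    (hl : ∀ ε > 0, ∃ n, Nm ψ (g - ∑ k ∈ Finset.range n, q k) ≤ ε) : Dm M ψ g := by
  choose W hW using fun k => rn' hψ (hq k) (hd k)
  have hn : ∀ (x : H →L[ℂ] H) k, ‖amp x (((2 ^ (k + 1) : ℝ) : ℂ) • W k)‖ =
      2 ^ (k + 1) * ‖amp x (W k)‖ := fun x k => by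
    rw [map_smul, norm_smul, Complex.norm_real, Real.norm_of_nonneg (by positivity)]
  obtain ⟨U, hU⟩ := glue (fun k => ((2 ^ (k + 1) : ℝ) : ℂ) • W k) (by
    refine Summable.of_nonneg_of_le (fun _ => sq_nonneg _) (fun k => ?_)
      ((summable_geometric_of_lt_one (r := 1 / 4) (by norm_num) (by norm_num)).mul_left
        (4 * C ^ 2))
    have h1 := hn 1 k
    have h2 := hW k 1 (one_mem M)
    rw [amp_one] at h1 h2
    rw [one_mul] at h2
    have h3 : ‖W k‖ ≤ C * (1 / 4) ^ k := h2 ▸ hC k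
    have h4 : ‖((2 ^ (k + 1) : ℝ) : ℂ) • W k‖ ≤ 2 ^ (k + 1) * (C * (1 / 4) ^ k) :=
      h1.trans_le (mul_le_mul_of_nonneg_left h3 (by positivity))
    refine (pow_le_pow_left₀ (norm_nonneg _) h4 2).trans (le_of_eq ?_)
    have h5 : ((2 : ℝ) ^ k) ^ 2 * (1 / 4) ^ k = 1 := by
      rw [← pow_mul, mul_comm k, pow_mul, ← mul_pow]; norm_num
    calc (2 ^ (k + 1) * (C * (1 / 4) ^ k)) ^ 2
        = 4 * C ^ 2 * (1 / 4) ^ k * (((2 : ℝ) ^ k) ^ 2 * (1 / 4) ^ k) := by ring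
      _ = _ := by rw [h5, mul_one])
  refine dm_iff.2 ⟨U, fun x hx => ?_⟩
  have h1 : ∀ n, Nm ψ (x * ∑ k ∈ Finset.range n, q k) ≤
      ∑ k ∈ Finset.range n, ‖amp x (W k)‖ := fun n => by
    induction n with
    | zero => simp [Nm_zero]
    | succ n ih =>
      rw [Finset.sum_range_succ, Finset.sum_range_succ, mul_add, ← hW n x hx]
      exact (Nm_add hψ (mul_mem hx (sum_mem fun k _ => hq k)) (mul_mem hx (hq n))).trans
        (add_le_add ih le_rfl)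
  have h2 : ∀ n, ∑ k ∈ Finset.range n, ‖amp x (W k)‖ ≤ ‖amp x U‖ := fun n => by
    refine (sq_le_sq₀ (Finset.sum_nonneg fun _ _ => norm_nonneg _) (norm_nonneg _)).1 ?_
    have h3 := Finset.sum_mul_sq_le_sq_mul_sq (Finset.range n) (fun k => (1 / 2 : ℝ) ^ (k + 1))
      fun k => 2 ^ (k + 1) * ‖amp x (W k)‖
    have h4 : ∀ k, (1 / 2 : ℝ) ^ (k + 1) * (2 ^ (k + 1) * ‖amp x (W k)‖) = ‖amp x (W k)‖ :=
      fun k => by rw [← mul_assoc, ← mul_pow]; norm_num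
    simp only [h4] at h3
    have h5 : ∑ k ∈ Finset.range n, ((1 / 2 : ℝ) ^ (k + 1)) ^ 2 ≤ 1 := by
      have h6 : ∀ n : ℕ, ∑ k ∈ Finset.range n, ((1 / 2 : ℝ) ^ (k + 1)) ^ 2 ≤
          1 - ((1 / 2 : ℝ) ^ n) ^ 2 := fun n => by
        induction n with
        | zero => simp
        | succ n ih =>
          rw [Finset.sum_range_succ, pow_succ (1 / 2 : ℝ) n]
          nlinarith only [ih, sq_nonneg ((1 / 2 : ℝ) ^ n)]
      linarith only [h6 n, sq_nonneg ((1 / 2 : ℝ) ^ n)]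
    have h7 : ∑ k ∈ Finset.range n, (2 ^ (k + 1) * ‖amp x (W k)‖) ^ 2 ≤ ‖amp x U‖ ^ 2 := by
      have := sum_le_hasSum (Finset.range n) (fun _ _ => sq_nonneg _) (hU x)
      simpa only [hn] using this
    exact h3.trans ((mul_le_mul h5 h7 (Finset.sum_nonneg fun _ _ => sq_nonneg _)
      zero_le_one).trans (one_mul _).le)
  refine le_of_forall_pos_le_add fun ε hε => ?_
  obtain ⟨n, h3⟩ := hl (ε / (‖x‖ + 1)) (by positivity)
  have hs : ∑ k ∈ Finset.range n, q k ∈ M := sum_mem fun k _ => hq k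
  have h4 : x * g = x * ∑ k ∈ Finset.range n, q k + x * (g - ∑ k ∈ Finset.range n, q k) := by
    rw [← mul_add, add_sub_cancel]
  rw [h4]
  refine (Nm_add hψ (mul_mem hx hs) (mul_mem hx (sub_mem hg hs))).trans
    (add_le_add ((h1 n).trans (h2 n)) ((Nm_mul hψ hx (sub_mem hg hs)).trans ?_))
  refine (mul_le_mul_of_nonneg_left h3 (norm_nonneg _)).trans ?_
  rw [← mul_div_assoc, div_le_iff₀ (by positivity)]
  nlinarith only [hε, norm_nonneg x]

omit hψ in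
theorem dm_zero : Dm M ψ 0 := ⟨0, fun x _ => by simp⟩

omit hψ in
theorem dm_neg {g : H →L[ℂ] H} (h : Dm M ψ g) : Dm M ψ (-g) :=
  dm_iff.2 ((dm_iff.1 h).imp fun _ h x hx => by rw [mul_neg, Nm_neg]; exact h x hx)

theorem dm_add {g g' : H →L[ℂ] H} (hg : g ∈ M) (hg' : g' ∈ M) (h : Dm M ψ g) (h' : Dm M ψ g') :
    Dm M ψ (g + g') := by
  refine dm_sum hψ (add_mem hg hg') (q := fun k => match k with | 0 => g | 1 => g' | _ + 2 => 0)
    (C := 4 * (Nm ψ g + Nm ψ g')) (fun k => ?_) (fun k => ?_) (fun k => ?_) fun ε hε => ⟨2, ?_⟩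
  · rcases k with _ | _ | k
    exacts [hg, hg', zero_mem M]
  · rcases k with _ | _ | k
    exacts [h, h', dm_zero]
  · have a := Nm_nonneg (ψ := ψ) g
    have b := Nm_nonneg (ψ := ψ) g'
    rcases k with _ | _ | k
    · change Nm ψ g ≤ _
      norm_num
      linarith only [a, b]
    · change Nm ψ g' ≤ _
      norm_num
      linarith only [a, b]
    · change Nm ψ 0 ≤ _
      rw [Nm_zero]
      positivity
  · simp only [Finset.sum_range_succ, Finset.sum_range_zero, zero_add, sub_self, Nm_zero, hε.le]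

theorem dm_lim {g : H →L[ℂ] H} (hg : g ∈ M)
    (h : ∀ ε > 0, ∃ d ∈ M, Dm M ψ d ∧ Nm ψ (g - d) ≤ ε) : Dm M ψ g := by
  choose d h1 h2 h3 using fun n : ℕ => h ((1 / 4) ^ n) (by positivity)
  have h4 := dm_sum hψ (sub_mem hg (h1 0)) (q := fun k => d (k + 1) - d k) (C := 2)
    (fun k => sub_mem (h1 _) (h1 _))
    (fun k => by
      rw [sub_eq_add_neg]
      exact dm_add hψ (h1 _) (neg_mem (h1 _)) (h2 _) (dm_neg (h2 _)))
    (fun k => by
      have e : d (k + 1) - d k = (g - d k) + -(g - d (k + 1)) := by abel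
      rw [e]
      refine (Nm_add hψ (sub_mem hg (h1 _)) (neg_mem (sub_mem hg (h1 _)))).trans ?_
      rw [Nm_neg]
      have a := h3 k
      have b := h3 (k + 1)
      have c : (0 : ℝ) < (1 / 4) ^ k := by positivity
      rw [pow_succ] at b
      linarith only [a, b, c])
    (fun ε hε => by
      obtain ⟨n, hn⟩ := exists_pow_lt_of_lt_one hε (show (1 / 4 : ℝ) < 1 by norm_num)
      refine ⟨n, ?_⟩
      rw [Finset.sum_range_sub, sub_sub_sub_cancel_right]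
      exact (h3 n).trans hn.le)
  have h5 := dm_add hψ (sub_mem hg (h1 0)) (h1 0) h4 (h2 0)
  rwa [sub_add_cancel] at h5

theorem dm_of_le {f : H →L[ℂ] H} (hfM : f ∈ M) (hfp : IsStarProjection f) {η : H}
    (h : ∀ y ∈ M, 0 ≤ y → y ≤ f → (ψ y).re ≤ (⟪η, y η⟫_ℂ).re) : Dm M ψ f := by
  refine ⟨emb 0 (f η), fun x hx => ?_⟩
  have e0 : ‖amp x (emb 0 (f η))‖ = ‖x (f η)‖ := by
    rw [amp_emb]
    exact lp.norm_single (E := fun _ : ℕ => H) (by norm_num) 0 _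
  have e1 : (⟪η, (star (x * f) * (x * f)) η⟫_ℂ).re = ‖x (f η)‖ ^ 2 := by
    change (⟪η, star (x * f) ((x * f) η)⟫_ℂ).re = _
    rw [← star_apply_inner, star_star, inner_self_re]
    rfl
  rw [e0, ← e1]
  have hyM : star (x * f) * (x * f) ∈ M := mul_mem (star_mem (mul_mem hx hfM)) (mul_mem hx hfM)
  obtain ⟨t, ht⟩ : ∃ t : ℝ, t = (‖star x * x‖ + 1)⁻¹ := ⟨_, rfl⟩
  have t0 : 0 < t := by rw [ht]; positivity
  have h1 : star f * (star x * x) * f ≤ ‖star x * x‖ • (star f * f) :=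
    CStarAlgebra.star_left_conjugate_le_norm_smul (IsSelfAdjoint.star_mul_self x)
  have h2 : star (x * f) * (x * f) ≤ ‖star x * x‖ • f := by
    rw [hfp.isSelfAdjoint.star_eq, hfp.isIdempotentElem.eq] at h1
    rw [star_mul, hfp.isSelfAdjoint.star_eq]
    simpa only [mul_assoc] using h1
  have h3 : t • (star (x * f) * (x * f)) ≤ f := by
    refine (smul_le_smul_of_nonneg_left h2 t0.le).trans ?_
    rw [smul_smul]
    refine (smul_le_smul_of_nonneg_right (a₂ := (1 : ℝ)) ?_ hfp.nonneg).trans (one_smul ℝ f).le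
    rw [ht, inv_mul_le_iff₀ (by positivity)]
    linarith only
  have h4 := h (t • (star (x * f) * (x * f)))
    (by rw [← Complex.coe_smul]; exact M.toStarSubalgebra.smul_mem hyM _)
    (smul_nonneg t0.le (star_mul_self_nonneg _)) h3
  rw [← Complex.coe_smul, map_smul, smul_eq_mul, Complex.re_ofReal_mul,
    ContinuousLinearMap.smul_apply, inner_smul_right, Complex.re_ofReal_mul] at h4
  exact le_of_mul_le_mul_left h4 t0

/-- **Normal positive functionals are vector functionals of the amplification.** -/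
theorem exists_vec (hn : ProjNormal M ψ) : ∃ W : EllTwo H, ∀ x ∈ M, ψ x = ⟪W, amp x W⟫_ℂ := by
  let S : Set (H →L[ℂ] H) := {g | g ∈ M ∧ IsStarProjection g ∧ Dm M ψ g}
  obtain ⟨g, -, ⟨hgM, hgp, hgw⟩, hmax⟩ := zorn_le_nonempty₀ S (by
    intro c hcS hc y hy
    have hne : c.Nonempty := ⟨y, hy⟩
    have hdir : DirectedOn (· ≤ ·) c := hc.directedOn
    obtain ⟨g, hgM, hgp, hglub, -⟩ := exists_sup_proj (M := M) hne hdir
      fun g hg => ⟨(hcS hg).1, (hcS hg).2.1⟩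
    refine ⟨g, ⟨hgM, hgp, dm_lim hψ hgM fun ε hε => ?_⟩, hglub.1⟩
    obtain ⟨d, hd, hdε⟩ := hn c hne hdir (fun g hg => ⟨(hcS hg).1, (hcS hg).2.1⟩) g hglub
      (ε ^ 2) (by positivity)
    refine ⟨d, (hcS hd).1, (hcS hd).2.2, (Real.sqrt_le_left hε.le).2 ?_⟩
    have hkp : IsStarProjection (g - d) :=
      (IsStarProjection.le_iff_sub (hcS hd).2.1 hgp).1 (hglub.1 hd)
    rw [hkp.isSelfAdjoint.star_eq, hkp.isIdempotentElem.eq, map_sub, Complex.sub_re]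
    linarith only [hdε]) 0 ⟨zero_mem M, IsStarProjection.zero _, dm_zero⟩
  by_cases hg1 : 1 - g = 0
  · rw [← sub_eq_zero.1 hg1] at hgw
    simpa only [star_one, one_mul, mul_one] using rn hψ (one_mem M) hgw
  · exfalso
    obtain ⟨f, hfM, hfp, hf0, hef, η, hη⟩ := hψ.exists_dominated (sub_mem (one_mem M) hgM)
      hgp.one_sub hg1
    have hgf : g * f = 0 := by
      rw [sub_mul, one_mul] at hef
      exact sub_eq_self.1 hef
    have h3 := hmax ⟨add_mem hgM hfM, hgp.add hfp hgf,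
      dm_add hψ hgM hfM hgw (dm_of_le hψ hfM hfp hη)⟩ (le_add_of_nonneg_right hfp.nonneg)
    exact hf0 (le_antisymm (by simpa using h3) hfp.nonneg)

end Vale.Agent.P132N34
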