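import Vale.Agent.P132.MathlibUsed
import Mathlib.Analysis.CStarAlgebra.Projection

/-! Projections in von Neumann algebras (after P078). -/

set_option linter.all false

namespace Vale.Agent.P132N34

open Filter Topology
open scoped ComplexOrder InnerProductSpace

variable {H : Type*} [NormedAddCommGroup H] [InnerProductSpace ℂ H] [CompleteSpace H]
variable {M : VonNeumannAlgebra H}

theorem commute_starProjection (K : Submodule ℂ H) [K.HasOrthogonalProjection] {y : H →L[ℂ] H}
    (hy : ∀ v ∈ K, y v ∈ K) (hy' : ∀ v ∈ K, star y v ∈ K) :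
    y * K.starProjection = K.starProjection * y := by
  ext u
  simp only [mul_apply_eq_comp]
  refine (Submodule.eq_starProjection_of_mem_orthogonal' (K := K)
    (hy _ (K.starProjection_apply_mem u)) (z := y (u - K.starProjection u)) ?_ ?_).symm
  · rw [Submodule.mem_orthogonal]
    intro w hw
    rw [← ContinuousLinearMap.adjoint_inner_left, ← ContinuousLinearMap.star_eq_adjoint]
    exact (Submodule.mem_orthogonal _ _).1 (K.sub_starProjection_mem_orthogonal u) _ (hy' w hw)
  · rw [← map_add]; congr 1; abel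

theorem exists_spectral_proj (T : H →L[ℂ] H) (hT : IsSelfAdjoint T) (t : ℝ) :
    ∃ e : H →L[ℂ] H, IsStarProjection e ∧ (∀ y : H →L[ℂ] H, y * T = T * y → y * e = e * y) ∧
      (∀ ζ, e ζ = ζ → t * ‖ζ‖ ^ 2 ≤ (inner ℂ ζ (T ζ)).re) ∧
      (∀ ζ, e ζ = 0 → (inner ℂ ζ (T ζ)).re ≤ t * ‖ζ‖ ^ 2) := by
  set S : H →L[ℂ] H := T - (t : ℂ) • 1 with hS
  have hSsa : IsSelfAdjoint S := by
    rw [hS]
    refine hT.sub ?_
    rw [IsSelfAdjoint, star_smul, star_one, Complex.star_def, Complex.conj_ofReal]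
  have hpos : 0 ≤ S⁺ := CFC.posPart_nonneg S
  have hneg : 0 ≤ S⁻ := CFC.negPart_nonneg S
  have hsub : S⁺ - S⁻ = S := CFC.posPart_sub_negPart S hSsa
  have hmul : S⁺ * S⁻ = 0 := CFC.posPart_mul_negPart S
  rw [ContinuousLinearMap.nonneg_iff_isPositive] at hpos hneg
  set K := (S⁺ : H →L[ℂ] H).ker with hK
  have hTS : ∀ ζ, (inner ℂ ζ (T ζ)).re
      = t * ‖ζ‖ ^ 2 + ((inner ℂ ζ (S⁺ ζ)).re - (inner ℂ ζ (S⁻ ζ)).re) := by
    intro ζ
    have h1 : T ζ = (t : ℂ) • ζ + (S⁺ ζ - S⁻ ζ) := by
      rw [← sub_apply, hsub, hS]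
      simp
    rw [h1, inner_add_right, inner_smul_right, inner_sub_right, Complex.add_re, Complex.sub_re,
      inner_self_eq_norm_sq_to_K]
    congr 1
    rw [Complex.re_ofReal_mul]
    norm_cast
  have hcomm : ∀ y : H →L[ℂ] H, y * T = T * y → y * S⁺ = S⁺ * y := by
    intro y hy
    have h1 : Commute S y := by
      rw [hS]
      refine (show Commute T y from hy.symm).sub_left ?_
      exact (Commute.one_left y).smul_left _
    rw [CFC.posPart_def]
    exact (h1.cfcₙ_real _).eq.symm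
  refine ⟨1 - K.starProjection, ?_, ?_, ?_, ?_⟩
  · exact isStarProjection_starProjection.one_sub
  · intro y hy
    have hy' : star y * T = T * star y := by
      have := congrArg star hy
      rwa [star_mul, star_mul, hT.star_eq, eq_comm] at this
    have h1 : y * K.starProjection = K.starProjection * y := by
      refine commute_starProjection K ?_ ?_
      · intro v hv
        have h := DFunLike.congr_fun (hcomm y hy) v
        simp only [mul_apply_eq_comp] at h
        rw [hK, LinearMap.mem_ker] at hv ⊢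
        change S⁺ v = 0 at hv
        change S⁺ (y v) = 0
        rw [← h, hv, map_zero]
      · intro v hv
        have h := DFunLike.congr_fun (hcomm _ hy') v
        simp only [mul_apply_eq_comp] at h
        rw [hK, LinearMap.mem_ker] at hv ⊢
        change S⁺ v = 0 at hv
        change S⁺ (star y v) = 0
        rw [← h, hv, map_zero]
    rw [mul_sub, sub_mul, h1, mul_one, one_mul]
  · intro ζ hζ
    have hz : K.starProjection ζ = 0 := by
      simpa only [sub_apply, one_apply_eq_self, sub_eq_self] using hζ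
    have hzo : ζ ∈ Kᗮ := (Submodule.starProjection_apply_eq_zero_iff K).1 hz
    have : S⁻ ζ ∈ K := by
      rw [hK, LinearMap.mem_ker]
      exact DFunLike.congr_fun hmul ζ
    have h0 : inner ℂ ζ (S⁻ ζ) = 0 := (Submodule.mem_orthogonal' _ _).1 hzo _ this
    rw [hTS, h0]
    have := hpos.re_inner_nonneg_right ζ
    simp only [RCLike.re_to_complex, Complex.zero_re, sub_zero, le_add_iff_nonneg_right, ge_iff_le] at this ⊢
    exact this
  · intro ζ hζ
    have hz : ζ ∈ K := by
      rw [← Submodule.starProjection_eq_self_iff]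
      rw [sub_apply, one_apply_eq_self, sub_eq_zero] at hζ
      exact hζ.symm
    have h0 : S⁺ ζ = 0 := hz
    rw [hTS, h0]
    have := hneg.re_inner_nonneg_right ζ
    simp only [RCLike.re_to_complex, inner_zero_right, Complex.zero_re, zero_sub, add_le_iff_nonpos_right, Left.neg_nonpos_iff, ge_iff_le] at this ⊢
    exact this

/-- an operator commuting with the commutant is in `M` -/
theorem mem_of_commute {x : H →L[ℂ] H} (hx : ∀ y ∈ M.commutant, y * x = x * y) : x ∈ M := by
  rw [← M.commutant_commutant]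
  exact VonNeumannAlgebra.mem_commutant_iff.2 hx

theorem commutant_comm {x y : H →L[ℂ] H} (hx : x ∈ M) (hy : y ∈ M.commutant) :
    y * x = x * y :=
  (VonNeumannAlgebra.mem_commutant_iff.1 hy x hx).symm

theorem star_apply_inner (T : H →L[ℂ] H) (u v : H) :
    inner ℂ (star T u) v = inner ℂ u (T v) := by
  rw [ContinuousLinearMap.star_eq_adjoint, ContinuousLinearMap.adjoint_inner_left]

theorem proj_inner {e : H →L[ℂ] H} (he : IsStarProjection e) (u v : H) :
    inner ℂ (e u) v = inner ℂ u (e v) := by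
  conv_lhs => rw [← he.isSelfAdjoint.star_eq]
  exact star_apply_inner e u v

theorem proj_apply_apply {e : H →L[ℂ] H} (he : IsStarProjection e) (u : H) :
    e (e u) = e u :=
  DFunLike.congr_fun he.isIdempotentElem u

theorem proj_inner_self {e : H →L[ℂ] H} (he : IsStarProjection e) (u : H) :
    (inner ℂ u (e u)).re = ‖e u‖ ^ 2 := by
  rw [← proj_apply_apply he u, ← proj_inner he, inner_self_eq_norm_sq_to_K]
  rw [proj_apply_apply he]
  norm_cast

theorem nonneg_of_inner {T : H →L[ℂ] H} (hT : IsSelfAdjoint T)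
    (h : ∀ ζ, 0 ≤ (inner ℂ ζ (T ζ)).re) : 0 ≤ T := by
  rw [ContinuousLinearMap.nonneg_iff_isPositive]
  exact (ContinuousLinearMap.isPositive_def' (T := T)).2 ⟨hT, fun ζ => by
    rw [ContinuousLinearMap.reApplyInnerSelf_apply, ← inner_conj_symm, RCLike.conj_re]
    exact h ζ⟩

theorem inner_nonneg_of_nonneg {T : H →L[ℂ] H} (hT : 0 ≤ T) (ζ : H) :
    0 ≤ (inner ℂ ζ (T ζ)).re :=
  ((ContinuousLinearMap.nonneg_iff_isPositive T).1 hT).re_inner_nonneg_right ζ

theorem inner_le_of_le {S T : H →L[ℂ] H} (hT : S ≤ T) (ζ : H) :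
    (inner ℂ ζ (S ζ)).re ≤ (inner ℂ ζ (T ζ)).re := by
  have := inner_nonneg_of_nonneg (sub_nonneg.2 hT) ζ
  rw [sub_apply, inner_sub_right, Complex.sub_re] at this
  linarith only [this]

theorem inner_self_re (ζ : H) : (inner ℂ ζ ζ).re = ‖ζ‖ ^ 2 := by
  rw [inner_self_eq_norm_sq_to_K]; norm_cast

theorem spectral_proj_mem {T e : H →L[ℂ] H} (hT : T ∈ M)
    (he : ∀ y : H →L[ℂ] H, y * T = T * y → y * e = e * y) : e ∈ M :=
  mem_of_commute fun y hy => he y (commutant_comm hT hy)

theorem proj_norm_sq {g : H →L[ℂ] H} (hg : IsStarProjection g) (v : H) :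
    ‖v‖ ^ 2 = ‖g v‖ ^ 2 + ‖v - g v‖ ^ 2 := by
  have h1 : ⟪g v, v - g v⟫_ℂ = 0 := by
    rw [proj_inner hg, map_sub, proj_apply_apply hg, sub_self, inner_zero_right]
  have h2 := norm_add_sq (𝕜 := ℂ) (g v) (v - g v)
  rw [h1] at h2
  simp only [add_sub_cancel, map_zero, mul_zero, add_zero] at h2
  exact h2

theorem proj_norm_le {g : H →L[ℂ] H} (hg : IsStarProjection g) (v : H) : ‖g v‖ ≤ ‖v‖ := by
  have h := proj_norm_sq hg v
  have h1 := norm_nonneg v
  have h2 := norm_nonneg (g v)
  have h3 := sq_nonneg ‖v - g v‖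
  nlinarith only [h, h1]

/-- suprema of directed sets of projections -/
theorem exists_sup_proj {D : Set (H →L[ℂ] H)} (hne : D.Nonempty)
    (hdir : DirectedOn (· ≤ ·) D) (hD : ∀ g ∈ D, g ∈ M ∧ IsStarProjection g) :
    ∃ g ∈ M, IsStarProjection g ∧ IsLUB D g ∧
      ∀ η : H, ∀ ε > 0, ∃ e ∈ D, ‖g η - e η‖ < ε := by
  have hle : ∀ e ∈ D, ∀ f ∈ D, e ≤ f → f * e = e := fun e he f hf h =>
    (IsStarProjection.le_iff_mul_eq_right (hD e he).2 (hD f hf).2).1 h
  let S : Submodule ℂ H :=
    { carrier := {v | ∃ e ∈ D, e v = v}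
      add_mem' := by
        rintro a b ⟨e, he, hea⟩ ⟨f, hf, hfb⟩
        obtain ⟨c, hc, hec, hfc⟩ := hdir e he f hf
        refine ⟨c, hc, ?_⟩
        have h1 : c a = a := by
          rw [← hea]; exact DFunLike.congr_fun (hle e he c hc hec) a
        have h2 : c b = b := by
          rw [← hfb]; exact DFunLike.congr_fun (hle f hf c hc hfc) b
        rw [map_add, h1, h2]
      zero_mem' := by
        obtain ⟨e, he⟩ := hne
        exact ⟨e, he, map_zero e⟩
      smul_mem' := by
        rintro c a ⟨e, he, hea⟩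
        exact ⟨e, he, by rw [map_smul, hea]⟩ }
  let K := S.topologicalClosure
  have hKc : IsClosed (K : Set H) := S.isClosed_topologicalClosure
  have : CompleteSpace K := hKc.completeSpace_coe
  obtain ⟨g, hg⟩ : ∃ g, g = K.starProjection := ⟨_, rfl⟩
  have hgp : IsStarProjection g := by rw [hg]; exact isStarProjection_starProjection
  have hinv : ∀ y : H →L[ℂ] H, (∀ e ∈ D, y * e = e * y) → ∀ v ∈ K, y v ∈ K := by
    intro y hy v hv
    have h1 : ∀ v ∈ S, y v ∈ S := by
      rintro v ⟨e, he, hev⟩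
      refine ⟨e, he, ?_⟩
      have := DFunLike.congr_fun (hy e he) v
      simp only [mul_apply_eq_comp] at this
      rw [← this, hev]
    have h2 : S ≤ K.comap (y : H →ₗ[ℂ] H) := fun v hv => S.le_topologicalClosure (h1 v hv)
    have h3 : IsClosed ((K.comap (y : H →ₗ[ℂ] H) : Submodule ℂ H) : Set H) :=
      hKc.preimage y.continuous
    exact (S.topologicalClosure_minimal h2 h3) hv
  have hcomm : ∀ y : H →L[ℂ] H, (∀ e ∈ D, y * e = e * y) → y * g = g * y := by
    intro y hy
    rw [hg]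
    refine commute_starProjection K (hinv y hy) (hinv _ fun e he => ?_)
    have := congrArg star (hy e he)
    rw [star_mul, star_mul, (hD e he).2.isSelfAdjoint.star_eq] at this
    exact this.symm
  have hgM : g ∈ M := mem_of_commute fun y hy => hcomm y fun e he =>
    commutant_comm (M := M) (hD e he).1 hy
  have hge : ∀ e ∈ D, g * e = e := by
    intro e he
    ext v
    change g (e v) = e v
    rw [hg]
    refine K.starProjection_eq_self_iff.2 (S.le_topologicalClosure ⟨e, he, ?_⟩)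
    exact proj_apply_apply (hD e he).2 v
  have heg : ∀ e ∈ D, e * g = e := by
    intro e he
    have := congrArg star (hge e he)
    rwa [star_mul, (hD e he).2.isSelfAdjoint.star_eq, hgp.isSelfAdjoint.star_eq] at this
  have hconv : ∀ η : H, ∀ ε > 0, ∃ e ∈ D, ‖g η - e η‖ < ε := by
    intro η ε hε
    have h1 : g η ∈ closure (S : Set H) := by rw [hg]; exact K.starProjection_apply_mem η
    obtain ⟨v, ⟨e, he, hev⟩, hd⟩ := Metric.mem_closure_iff.1 h1 ε hε
    refine ⟨e, he, ?_⟩
    have h4 : e (g η) = e η := DFunLike.congr_fun (heg e he) η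
    have h7 : g η - e η = (1 - e) (g η - v) := by
      simp only [sub_apply, one_apply_eq_self, map_sub]
      rw [hev, h4]
      abel
    rw [h7]
    rw [dist_eq_norm] at hd
    exact (proj_norm_le (hD e he).2.one_sub _).trans_lt hd
  refine ⟨g, hgM, hgp, ⟨?_, ?_⟩, hconv⟩
  · intro e he
    exact (IsStarProjection.le_iff_mul_eq_right (hD e he).2 hgp).2 (hge e he)
  · intro T hT
    obtain ⟨e0, he0⟩ := hne
    have hTsa : IsSelfAdjoint T := by
      have h1 : 0 ≤ T - e0 := sub_nonneg.2 (hT he0)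
      have h2 := IsSelfAdjoint.of_nonneg h1
      have h3 := h2.add (hD e0 he0).2.isSelfAdjoint
      rwa [sub_add_cancel] at h3
    rw [← sub_nonneg]
    refine nonneg_of_inner (hTsa.sub hgp.isSelfAdjoint) fun ζ => ?_
    rw [sub_apply, inner_sub_right, Complex.sub_re, proj_inner_self hgp, sub_nonneg]
    have hTn : ∀ e ∈ D, ‖e ζ‖ ^ 2 ≤ (⟪ζ, T ζ⟫_ℂ).re := by
      intro e he
      rw [← proj_inner_self (hD e he).2]
      exact inner_le_of_le (hT he) ζ
    have hT0 : 0 ≤ (⟪ζ, T ζ⟫_ℂ).re := (sq_nonneg _).trans (hTn e0 he0)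
    have h5 : ‖g ζ‖ ≤ Real.sqrt (⟪ζ, T ζ⟫_ℂ).re := by
      refine le_of_forall_pos_le_add fun ε hε => ?_
      obtain ⟨e, he, hed⟩ := hconv ζ ε hε
      have h6 : ‖e ζ‖ ≤ Real.sqrt (⟪ζ, T ζ⟫_ℂ).re := Real.le_sqrt_of_sq_le (hTn e he)
      calc ‖g ζ‖ = ‖e ζ + (g ζ - e ζ)‖ := by congr 1; abel
        _ ≤ ‖e ζ‖ + ‖g ζ - e ζ‖ := norm_add_le _ _
        _ ≤ _ := add_le_add h6 hed.le
    calc ‖g ζ‖ ^ 2 ≤ Real.sqrt (⟪ζ, T ζ⟫_ℂ).re ^ 2 := pow_le_pow_left₀ (norm_nonneg _) h5 2
      _ = _ := Real.sq_sqrt hT0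

end Vale.Agent.P132N34
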