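import Vale.Agent.P132N34.A

/-! Positive functionals are dominated by vector functionals below suitable projections (after P078). -/

set_option linter.all false

namespace Vale.Agent.P132N34

open Filter Topology
open scoped ComplexOrder InnerProductSpace

variable {H : Type*} [NormedAddCommGroup H] [InnerProductSpace ℂ H] [CompleteSpace H]
variable {M : VonNeumannAlgebra H}

/-- positive functionals on `M` -/
def PosOn (M : VonNeumannAlgebra H) (ψ : (H →L[ℂ] H) →ₗ[ℂ] ℂ) : Prop :=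
  ∀ x ∈ M, 0 ≤ x → 0 ≤ (ψ x).re ∧ (ψ x).im = 0

/-- order-continuity on directed sets of projections -/
def ProjNormal (M : VonNeumannAlgebra H) (ψ : (H →L[ℂ] H) →ₗ[ℂ] ℂ) : Prop :=
  ∀ D : Set (H →L[ℂ] H), D.Nonempty → DirectedOn (· ≤ ·) D →
    (∀ g ∈ D, g ∈ M ∧ IsStarProjection g) → ∀ g, IsLUB D g →
    ∀ ε > 0, ∃ e ∈ D, (ψ g).re - ε < (ψ e).re

namespace PosOn

variable {ψ : (H →L[ℂ] H) →ₗ[ℂ] ℂ} (hψ : PosOn M ψ)
include hψ

theorem mono {x y : H →L[ℂ] H} (hx : x ∈ M) (hy : y ∈ M) (h : x ≤ y) :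
    (ψ x).re ≤ (ψ y).re := by
  have := (hψ (y - x) (sub_mem hy hx) (sub_nonneg.2 h)).1
  rw [map_sub, Complex.sub_re] at this
  linarith only [this]

theorem im_sa {x : H →L[ℂ] H} (hx : x ∈ M) (hxs : IsSelfAdjoint x) : (ψ x).im = 0 := by
  have h1 : 0 ≤ ((‖x‖ : ℝ) : ℂ) • (1 : H →L[ℂ] H) + x := by
    refine nonneg_of_inner ?_ fun ζ => ?_
    · refine IsSelfAdjoint.add ?_ hxs
      rw [IsSelfAdjoint, star_smul, star_one, Complex.star_def, Complex.conj_ofReal]
    · rw [add_apply, inner_add_right, Complex.add_re, smul_apply, inner_smul_right,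
        Complex.re_ofReal_mul, one_apply_eq_self, inner_self_re]
      have h2 : |(⟪ζ, x ζ⟫_ℂ).re| ≤ ‖x‖ * ‖ζ‖ ^ 2 := by
        calc |(⟪ζ, x ζ⟫_ℂ).re| ≤ ‖⟪ζ, x ζ⟫_ℂ‖ := Complex.abs_re_le_norm _
          _ ≤ ‖ζ‖ * ‖x ζ‖ := norm_inner_le_norm _ _
          _ ≤ ‖ζ‖ * (‖x‖ * ‖ζ‖) := mul_le_mul_of_nonneg_left (x.le_opNorm _) (norm_nonneg _)
          _ = _ := by ring
      linarith only [h2, neg_abs_le (⟪ζ, x ζ⟫_ℂ).re]
  have h2 : ((‖x‖ : ℝ) : ℂ) • (1 : H →L[ℂ] H) + x ∈ M :=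
    add_mem (M.toStarSubalgebra.smul_mem (one_mem M) _) hx
  have h3 := (hψ _ h2 h1).2
  have h4 := (hψ 1 (one_mem M) zero_le_one).2
  rw [map_add, map_smul, smul_eq_mul, Complex.add_im, Complex.im_ofReal_mul, h4, mul_zero,
    zero_add] at h3
  exact h3

theorem map_star {x : H →L[ℂ] H} (hx : x ∈ M) : ψ (star x) = (starRingEnd ℂ) (ψ x) := by
  have h1 := hψ.im_sa (add_mem hx (star_mem hx)) (IsSelfAdjoint.add_star_self x)
  have h2 := hψ.im_sa (x := Complex.I • (x - star x))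
    (M.toStarSubalgebra.smul_mem (sub_mem hx (star_mem hx)) _) (by
      rw [IsSelfAdjoint, star_smul, star_sub, star_star, Complex.star_def, Complex.conj_I,
        neg_smul, ← smul_neg, neg_sub])
  rw [map_add, Complex.add_im] at h1
  rw [map_smul, map_sub, smul_eq_mul] at h2
  have h3 : (Complex.I * (ψ x - ψ (star x))).im = (ψ x).re - (ψ (star x)).re := by simp only [Complex.mul_im, Complex.I_re, Complex.sub_im, zero_mul, Complex.I_im, Complex.sub_re, one_mul, zero_add]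
  rw [h3] at h2
  apply Complex.ext
  · rw [Complex.conj_re]; linarith only [h2]
  · rw [Complex.conj_im]; linarith only [h1]

theorem cauchy {x y : H →L[ℂ] H} (hx : x ∈ M) (hy : y ∈ M) :
    ‖ψ (star y * x)‖ ^ 2 ≤ (ψ (star y * y)).re * (ψ (star x * x)).re := by
  have hxx : ∀ z ∈ M, 0 ≤ (ψ (star z * z)).re := fun z hz =>
    (hψ _ (mul_mem (star_mem hz) hz) (star_mul_self_nonneg z)).1
  obtain ⟨c, hc⟩ : ∃ c : ℂ, c = ψ (star y * x) := ⟨_, rfl⟩
  obtain ⟨a, ha⟩ : ∃ a : ℝ, a = (ψ (star y * y)).re := ⟨_, rfl⟩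
  obtain ⟨b, hb⟩ : ∃ b : ℝ, b = (ψ (star x * x)).re := ⟨_, rfl⟩
  rw [← hc, ← ha, ← hb]
  have ha0 : 0 ≤ a := by rw [ha]; exact hxx y hy
  have hb0 : 0 ≤ b := by rw [hb]; exact hxx x hx
  have hcc : ψ (star x * y) = (starRingEnd ℂ) c := by
    rw [hc, ← hψ.map_star (mul_mem (star_mem hy) hx), star_mul, star_star]
  -- expand the square of x - (t c) y
  have h1 : ∀ t : ℝ, 0 ≤ b - 2 * t * ‖c‖ ^ 2 + t ^ 2 * ‖c‖ ^ 2 * a := by
    intro t
    obtain ⟨u, hu⟩ : ∃ u : ℂ, u = (t : ℂ) * c := ⟨_, rfl⟩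
    have h2 := hxx (x - u • y) (sub_mem hx (M.toStarSubalgebra.smul_mem hy _))
    have h3 : star (x - u • y) * (x - u • y) = star x * x - u • (star x * y) -
        (starRingEnd ℂ) u • (star y * x) + ((starRingEnd ℂ) u * u) • (star y * y) := by
      rw [star_sub, star_smul, Complex.star_def, sub_mul, mul_sub, mul_sub, mul_smul_comm,
        smul_mul_assoc, smul_mul_assoc, mul_smul_comm, smul_smul]
      abel
    rw [h3, map_add, map_sub, map_sub, map_smul, map_smul, map_smul, hcc, ← hc] at h2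
    simp only [smul_eq_mul] at h2
    have h4 : (starRingEnd ℂ) u * u = ((t ^ 2 * ‖c‖ ^ 2 : ℝ) : ℂ) := by
      rw [hu, map_mul, Complex.conj_ofReal]
      have : (starRingEnd ℂ) c * c = ((‖c‖ ^ 2 : ℝ) : ℂ) := by
        rw [mul_comm, Complex.mul_conj, Complex.normSq_eq_norm_sq]
      calc (t : ℂ) * (starRingEnd ℂ) c * ((t : ℂ) * c) = (t : ℂ) ^ 2 * ((starRingEnd ℂ) c * c) := by
            ring
        _ = _ := by rw [this]; push_cast; ring
    have h5 : u * (starRingEnd ℂ) c = ((t * ‖c‖ ^ 2 : ℝ) : ℂ) := by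
      rw [hu, mul_assoc, Complex.mul_conj, Complex.normSq_eq_norm_sq]; push_cast; ring
    have h6 : (starRingEnd ℂ) u * c = ((t * ‖c‖ ^ 2 : ℝ) : ℂ) := by
      rw [hu, map_mul, Complex.conj_ofReal, mul_assoc, mul_comm ((starRingEnd ℂ) c) c,
        Complex.mul_conj, Complex.normSq_eq_norm_sq]; push_cast; ring
    rw [h4, h5, h6] at h2
    simp only [Complex.add_re, Complex.sub_re, Complex.ofReal_re, Complex.re_ofReal_mul] at h2
    rw [← ha, ← hb] at h2
    linarith only [h2]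
  rcases ha0.eq_or_lt with h2 | h2
  · rw [← h2] at h1 ⊢
    rw [zero_mul]
    by_contra hcon
    push Not at hcon
    have h3 := h1 ((b + 1) / (2 * ‖c‖ ^ 2))
    have h4 : 2 * ((b + 1) / (2 * ‖c‖ ^ 2)) * ‖c‖ ^ 2 = b + 1 := by
      have hc0 : ‖c‖ ^ 2 ≠ 0 := hcon.ne'
      generalize ‖c‖ ^ 2 = w at hc0 ⊢
      field_simp
    rw [h4] at h3
    linarith only [h3]
  · have h3 := h1 (1 / a)
    have h4 : (1 / a) ^ 2 * ‖c‖ ^ 2 * a = 1 / a * ‖c‖ ^ 2 := by (clear * - h2; field_simp)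
    rw [h4] at h3
    have h5 : ‖c‖ ^ 2 / a ≤ b := by
      have : 2 * (1 / a) * ‖c‖ ^ 2 = 2 * (‖c‖ ^ 2 / a) := by ring
      rw [this] at h3
      have : 1 / a * ‖c‖ ^ 2 = ‖c‖ ^ 2 / a := by ring
      rw [this] at h3
      linarith only [h3]
    rw [div_le_iff₀ h2] at h5
    linarith only [h5]

/-- domination by a vector functional below a nonzero projection -/
theorem exists_dominated {e : H →L[ℂ] H} (heM : e ∈ M)
    (hep : IsStarProjection e) (he : e ≠ 0) :
    ∃ f ∈ M, IsStarProjection f ∧ f ≠ 0 ∧ e * f = f ∧ ∃ η : H,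
      ∀ y ∈ M, 0 ≤ y → y ≤ f → (ψ y).re ≤ (⟪η, y η⟫_ℂ).re := by
  obtain ⟨ζ, hζ⟩ : ∃ ζ, e ζ ≠ 0 := by
    by_contra hcon
    push Not at hcon
    exact he (ContinuousLinearMap.ext hcon)
  have heζ : 0 < ‖e ζ‖ := norm_pos_iff.2 hζ
  obtain ⟨s, hs⟩ : ∃ s : ℝ, (ψ e).re < s ^ 2 * ‖e ζ‖ ^ 2 := by
    refine ⟨Real.sqrt ((|(ψ e).re| + 1) / ‖e ζ‖ ^ 2), ?_⟩
    rw [Real.sq_sqrt (by (clear * - hζ; positivity)), div_mul_cancel₀ _ (by positivity)]
    linarith only [le_abs_self (ψ e).re]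
  obtain ⟨η, hη⟩ : ∃ η : H, η = (s : ℂ) • ζ := ⟨_, rfl⟩
  have hωe : (ψ e).re < ‖e η‖ ^ 2 := by
    rw [hη, map_smul, norm_smul, mul_pow, Complex.norm_real, Real.norm_eq_abs, sq_abs]
    exact hs
  let S : Set (H →L[ℂ] H) := {g | g ∈ M ∧ IsStarProjection g ∧ g ≤ e ∧ ‖g η‖ ^ 2 ≤ (ψ g).re}
  have h0 : (0 : H →L[ℂ] H) ∈ S := by
    refine ⟨zero_mem M, IsStarProjection.zero _, hep.nonneg, ?_⟩
    rw [map_zero, Complex.zero_re, zero_apply, norm_zero]
    norm_num
  obtain ⟨g, -, hg⟩ := zorn_le_nonempty₀ S (by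
    intro c hcS hc y hy
    have hne : c.Nonempty := ⟨y, hy⟩
    have hdir : DirectedOn (· ≤ ·) c := hc.directedOn
    obtain ⟨g, hgM, hgp, hglub, hgconv⟩ := exists_sup_proj (M := M) hne hdir
      fun g hg => ⟨(hcS hg).1, (hcS hg).2.1⟩
    refine ⟨g, ⟨hgM, hgp, hglub.2 fun d hd => (hcS hd).2.2.1, ?_⟩, hglub.1⟩
    have hψg : 0 ≤ (ψ g).re := (hψ g hgM hgp.nonneg).1
    have h1 : ‖g η‖ ≤ Real.sqrt (ψ g).re := by
      refine le_of_forall_pos_le_add fun ε hε => ?_
      obtain ⟨d, hd, hdd⟩ := hgconv η ε hε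
      have h2 : ‖d η‖ ≤ Real.sqrt (ψ g).re := by
        refine Real.le_sqrt_of_sq_le ((hcS hd).2.2.2.trans ?_)
        exact hψ.mono (hcS hd).1 hgM (hglub.1 hd)
      calc ‖g η‖ = ‖d η + (g η - d η)‖ := by congr 1; abel
        _ ≤ ‖d η‖ + ‖g η - d η‖ := norm_add_le _ _
        _ ≤ _ := add_le_add h2 hdd.le
    calc ‖g η‖ ^ 2 ≤ Real.sqrt (ψ g).re ^ 2 := pow_le_pow_left₀ (norm_nonneg _) h1 2
      _ = _ := Real.sq_sqrt hψg) 0 h0
  obtain ⟨⟨hgM, hgp, hge, hgη⟩, hmax⟩ := hg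
  have heg : e * g = g := (IsStarProjection.le_iff_mul_eq_right hgp hep).1 hge
  have hge' : g * e = g := by
    have := congrArg star heg
    rwa [star_mul, hgp.isSelfAdjoint.star_eq, hep.isSelfAdjoint.star_eq] at this
  obtain ⟨f, hf⟩ : ∃ f, f = e - g := ⟨_, rfl⟩
  have hee : e * e = e := hep.isIdempotentElem.eq
  have hgg : g * g = g := hgp.isIdempotentElem.eq
  have hfp : IsStarProjection f := by
    refine ⟨?_, by rw [hf]; exact hep.isSelfAdjoint.sub hgp.isSelfAdjoint⟩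
    change f * f = f
    rw [hf, sub_mul, mul_sub, mul_sub, hee, heg, hge', hgg]
    abel
  have hfM : f ∈ M := by rw [hf]; exact sub_mem heM hgM
  have hf0 : f ≠ 0 := by
    intro h
    rw [hf, sub_eq_zero] at h
    rw [← h] at hgη
    linarith only [hωe, hgη]
  have hef : e * f = f := by rw [hf, mul_sub, hee, heg]
  have hgf : g * f = 0 := by rw [hf, mul_sub, hge', hgg, sub_self]
  -- strict inequality below f
  have hsub : ∀ h ∈ M, IsStarProjection h → f * h = h → (ψ h).re ≤ ‖h η‖ ^ 2 := by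
    intro h hhM hhp hfh
    by_contra hcon
    push Not at hcon
    have hgh : g * h = 0 := by rw [← hfh, ← mul_assoc, hgf, zero_mul]
    have hghp : IsStarProjection (g + h) := hgp.add hhp hgh
    have h1 : g + h ∈ S := by
      refine ⟨add_mem hgM hhM, hghp, ?_, ?_⟩
      · refine (IsStarProjection.le_iff_mul_eq_right hghp hep).2 ?_
        have : e * h = h := by rw [← hfh, ← mul_assoc, hef]
        rw [mul_add, heg, this]
      · have h2 : ‖(g + h) η‖ ^ 2 = ‖g η‖ ^ 2 + ‖h η‖ ^ 2 := by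
          rw [← proj_inner_self hghp, add_apply, inner_add_right, Complex.add_re,
            proj_inner_self hgp, proj_inner_self hhp]
        rw [h2, map_add, Complex.add_re]
        linarith only [hgη, hcon]
    have h3 := hmax h1 (le_add_of_nonneg_right hhp.nonneg)
    have h4 : h ≤ 0 := by
      have := sub_nonneg.2 h3
      rw [← sub_sub, sub_self, zero_sub] at this
      exact neg_nonneg.1 this
    have h5 : h = 0 := le_antisymm h4 hhp.nonneg
    rw [h5, map_zero] at hcon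
    simp only [zero_apply, norm_zero, ne_eq, OfNat.ofNat_ne_zero, not_false_eq_true, zero_pow, Complex.zero_re, lt_self_iff_false] at hcon
  refine ⟨f, hfM, hfp, hf0, hef, η, ?_⟩
  have hff : f * f = f := hfp.isIdempotentElem.eq
  have hψf : 0 ≤ (ψ f).re := (hψ f hfM hfp.nonneg).1
  -- dyadic approximation
  have key : ∀ n : ℕ, ∀ y ∈ M, 0 ≤ y → y ≤ f →
      (ψ y).re ≤ (⟪η, y η⟫_ℂ).re + (1 / 2) ^ n * (ψ f).re := by
    intro n
    induction n with
    | zero =>
      intro y hyM hy0 hyf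
      have h1 := hψ.mono hyM hfM hyf
      have h2 := inner_nonneg_of_nonneg hy0 η
      rw [pow_zero, one_mul]
      linarith only [h1, h2]
    | succ n ih =>
      intro y hyM hy0 hyf
      have hysa : IsSelfAdjoint y := IsSelfAdjoint.of_nonneg hy0
      -- y lives under f
      have hyfz : ∀ ζ, f ζ = 0 → y ζ = 0 := by
        intro ζ hζ
        have h1 := inner_le_of_le hyf ζ
        rw [hζ, inner_zero_right, Complex.zero_re] at h1
        have h2 := inner_nonneg_of_nonneg hy0 ζ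
        have h3 : (⟪ζ, y ζ⟫_ℂ).re = 0 := le_antisymm h1 h2
        -- Cauchy-Schwarz through the square root
        have h4 : ‖CFC.sqrt y ζ‖ ^ 2 = 0 := by
          have h5 : CFC.sqrt y * CFC.sqrt y = y := CFC.sqrt_mul_sqrt_self y hy0
          have h6 : IsSelfAdjoint (CFC.sqrt y) := IsSelfAdjoint.of_nonneg (CFC.sqrt_nonneg y)
          have h7 : (⟪ζ, y ζ⟫_ℂ).re = ‖CFC.sqrt y ζ‖ ^ 2 := by
            have h8 : y ζ = CFC.sqrt y (CFC.sqrt y ζ) := (DFunLike.congr_fun h5 ζ).symm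
            rw [h8, ← inner_self_re, ← star_apply_inner, h6.star_eq]
          rw [← h7, h3]
        have h5 : CFC.sqrt y ζ = 0 := norm_eq_zero.1 (pow_eq_zero_iff two_ne_zero |>.1 h4)
        have h6 : y ζ = CFC.sqrt y (CFC.sqrt y ζ) :=
          (DFunLike.congr_fun (CFC.sqrt_mul_sqrt_self y hy0) ζ).symm
        rw [h6, h5, map_zero]
      have hyf1 : y * f = y := by
        ext ζ
        change y (f ζ) = y ζ
        have h1 : y (ζ - f ζ) = 0 := hyfz _ (by rw [map_sub, proj_apply_apply hfp, sub_self])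
        rw [map_sub, sub_eq_zero] at h1
        exact h1.symm
      have hyf2 : f * y = y := by
        have := congrArg star hyf1
        rwa [star_mul, hysa.star_eq, hfp.isSelfAdjoint.star_eq] at this
      obtain ⟨h, hhp, hhc, hh1, hh2⟩ := exists_spectral_proj y hysa (1 / 2)
      have hhM : h ∈ M := Vale.Agent.P132N34.spectral_proj_mem hyM hhc
      have hfh' : f * h = h * f := hhc f (by rw [hyf1, hyf2])
      have hyh : y * h = h * y := hhc y rfl
      have hfh : f * h = h := by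
        have h1 : ∀ v, h (v - f v) = 0 := by
          intro v
          obtain ⟨ζ, hζ⟩ : ∃ ζ, ζ = h (v - f v) := ⟨_, rfl⟩
          rw [← hζ]
          have h2 : h ζ = ζ := by rw [hζ]; exact proj_apply_apply hhp _
          have h3 := hh1 ζ h2
          have h4 : y ζ = 0 := by
            refine hyfz ζ ?_
            have : f ζ = h (f (v - f v)) := by
              rw [hζ]; exact DFunLike.congr_fun hfh' (v - f v)
            rw [this, map_sub, proj_apply_apply hfp, sub_self, map_zero]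
          rw [h4, inner_zero_right, Complex.zero_re] at h3
          have h5 : ‖ζ‖ ^ 2 = 0 := le_antisymm (by linarith only [h3]) (sq_nonneg _)
          exact norm_eq_zero.1 (pow_eq_zero_iff two_ne_zero |>.1 h5)
        rw [hfh']
        ext v
        have := h1 v
        rw [map_sub, sub_eq_zero] at this
        exact this.symm
      have hhf : h * f = h := by rw [← hfh', hfh]
      obtain ⟨z, hz⟩ : ∃ z, z = (2 : ℂ) • y - h := ⟨_, rfl⟩
      have hzM : z ∈ M := by
        rw [hz]; exact sub_mem (M.toStarSubalgebra.smul_mem hyM _) hhM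
      have hzsa : IsSelfAdjoint z := by
        rw [hz]
        refine IsSelfAdjoint.sub ?_ hhp.isSelfAdjoint
        rw [IsSelfAdjoint, star_smul, hysa.star_eq]
        simp
      have hzq : ∀ ζ, (⟪ζ, z ζ⟫_ℂ).re = 2 * (⟪ζ, y ζ⟫_ℂ).re - ‖h ζ‖ ^ 2 := by
        intro ζ
        rw [hz, sub_apply, inner_sub_right, smul_apply, inner_smul_right, Complex.sub_re,
          proj_inner_self hhp]
        have : ((2 : ℂ) * ⟪ζ, y ζ⟫_ℂ).re = 2 * (⟪ζ, y ζ⟫_ℂ).re := by simp
        rw [this]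
      have hydec : ∀ ζ, (⟪ζ, y ζ⟫_ℂ).re = (⟪h ζ, y (h ζ)⟫_ℂ).re +
          (⟪ζ - h ζ, y (ζ - h ζ)⟫_ℂ).re := by
        intro ζ
        have e1 : y = h * y * h + (1 - h) * y * (1 - h) := by
          have : (1 - h) * y * (1 - h) = y - y * h - h * y + h * y * h := by noncomm_ring
          rw [this, mul_assoc h y h, hyh, ← mul_assoc, hhp.isIdempotentElem.eq]; abel
        have e2 : ⟪h ζ, y (h ζ)⟫_ℂ = ⟪ζ, (h * y * h) ζ⟫_ℂ := proj_inner hhp _ _
        have e3 : ⟪ζ - h ζ, y (ζ - h ζ)⟫_ℂ = ⟪ζ, ((1 - h) * y * (1 - h)) ζ⟫_ℂ :=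
          proj_inner hhp.one_sub _ _
        rw [e2, e3, ← Complex.add_re, ← inner_add_right, ← add_apply, ← e1]
      have hz0 : 0 ≤ z := by
        refine nonneg_of_inner hzsa fun ζ => ?_
        rw [hzq, hydec]
        have h1 := hh1 (h ζ) (proj_apply_apply hhp ζ)
        have h2 := inner_nonneg_of_nonneg hy0 (ζ - h ζ)
        linarith only [h2, h1]
      have hzf : z ≤ f := by
        rw [← sub_nonneg]
        refine nonneg_of_inner (hfp.isSelfAdjoint.sub hzsa) fun ζ => ?_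
        rw [sub_apply, inner_sub_right, Complex.sub_re, hzq, proj_inner_self hfp]
        -- reduce to vectors in the range of f
        have h3 : ‖f ζ‖ ^ 2 = ‖h ζ‖ ^ 2 + ‖f ζ - h ζ‖ ^ 2 := by
          have h4 := proj_norm_sq hhp (f ζ)
          have h5 : h (f ζ) = h ζ := DFunLike.congr_fun hhf ζ
          rw [h5] at h4
          exact h4
        have h6 : (⟪ζ, y ζ⟫_ℂ).re = (⟪f ζ, y (f ζ)⟫_ℂ).re := by
          have e1 : ⟪f ζ, y (f ζ)⟫_ℂ = ⟪ζ, (f * (y * f)) ζ⟫_ℂ := proj_inner hfp _ _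
          rw [e1, hyf1, hyf2]
        rw [h6, hydec (f ζ)]
        have h5 : h (f ζ) = h ζ := DFunLike.congr_fun hhf ζ
        rw [h5]
        have h7 := inner_le_of_le hyf (h ζ)
        have h8 : f (h ζ) = h ζ := DFunLike.congr_fun hfh ζ
        rw [h8, inner_self_re] at h7
        have h9 := hh2 (f ζ - h ζ) (by rw [map_sub, h5, proj_apply_apply hhp, sub_self])
        linarith only [h3, h7, h9]
      have h1 := ih z hzM hz0 hzf
      have h2 := hsub h hhM hhp hfh
      have h3 : (ψ z).re = 2 * (ψ y).re - (ψ h).re := by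
        rw [hz, map_sub, map_smul, Complex.sub_re, smul_eq_mul]
        simp
      rw [hzq, h3] at h1
      rw [pow_succ]
      linarith only [h1, h2]
  intro y hyM hy0 hyf
  have h1 : Tendsto (fun n : ℕ => (⟪η, y η⟫_ℂ).re + (1 / 2 : ℝ) ^ n * (ψ f).re) atTop
      (𝓝 ((⟪η, y η⟫_ℂ).re + 0 * (ψ f).re)) :=
    tendsto_const_nhds.add ((tendsto_pow_atTop_nhds_zero_of_lt_one (by norm_num)
      (by norm_num)).mul_const _)
  rw [zero_mul, add_zero] at h1
  exact ge_of_tendsto h1 (Eventually.of_forall fun n => key n y hyM hy0 hyf)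

end PosOn

end Vale.Agent.P132N34
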