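import Vale.Agent.P132N34.B
import Vale.Agent.P132.Bd8.B5

/-! The Radon-Nikodym theorem for functionals dominated by a vector functional of the
amplification. -/

set_option linter.all false

namespace Vale.Agent.P132N34

open Filter Topology Vale.Agent.P132
open scoped ComplexOrder InnerProductSpace ComplexConjugate

universe u

section Form

variable {H : Type*} [NormedAddCommGroup H] [InnerProductSpace ℂ H] [CompleteSpace H]

/-- Riesz representation relative to a linear map -/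
theorem exists_riesz {E : Type*} [AddCommGroup E] [Module ℂ E] (Λ : E →ₗ[ℂ] H) (φ : E →ₗ[ℂ] ℂ)
    {C : ℝ} (h : ∀ x, ‖φ x‖ ≤ C * ‖Λ x‖) : ∃ κ : H, ∀ x, φ x = ⟪κ, Λ x⟫_ℂ := by
  have hker : LinearMap.ker Λ ≤ LinearMap.ker φ := by
    intro x hx
    rw [LinearMap.mem_ker] at hx ⊢
    have := h x
    rw [hx, norm_zero, mul_zero] at this
    exact norm_le_zero_iff.1 this
  let g : LinearMap.range Λ →ₗ[ℂ] ℂ :=
    ((LinearMap.ker Λ).liftQ φ hker).comp (LinearMap.quotKerEquivRange Λ).symm.toLinearMap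
  have hg : ∀ x, g ⟨Λ x, x, rfl⟩ = φ x := by
    intro x
    have h1 : (LinearMap.quotKerEquivRange Λ).symm ⟨Λ x, x, rfl⟩ =
        Submodule.Quotient.mk x := by
      rw [LinearEquiv.symm_apply_eq]
      rfl
    change ((LinearMap.ker Λ).liftQ φ hker) ((LinearMap.quotKerEquivRange Λ).symm _) = φ x
    rw [h1]
    rfl
  let G : StrongDual ℂ (LinearMap.range Λ) := g.mkContinuous C (by
    rintro ⟨_, x, rfl⟩
    rw [hg]
    exact h x)
  obtain ⟨G', hG', -⟩ := exists_extension_norm_eq (LinearMap.range Λ) G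
  refine ⟨(InnerProductSpace.toDual ℂ H).symm G', fun x => ?_⟩
  rw [InnerProductSpace.toDual_symm_apply]
  rw [← hg x]
  exact (hG' ⟨Λ x, x, rfl⟩).symm

variable {E : Type*} [AddCommGroup E] [Module ℂ E]

theorem cl_induct (Λ : E →ₗ[ℂ] H) {P : H → Prop} (hP : IsClosed {z | P z}) (h : ∀ x, P (Λ x))
    {z : H} (hz : z ∈ (LinearMap.range Λ).topologicalClosure) : P z :=
  closure_minimal (s := (LinearMap.range Λ : Set H)) (t := {z | P z})
    (by rintro _ ⟨x, rfl⟩; exact h x) hP hz

theorem cl_ext (Λ : E →ₗ[ℂ] H) {u v : H} (hu : u ∈ (LinearMap.range Λ).topologicalClosure)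
    (hv : v ∈ (LinearMap.range Λ).topologicalClosure) (h : ∀ y, ⟪u, Λ y⟫_ℂ = ⟪v, Λ y⟫_ℂ) :
    u = v := by
  have h1 : ⟪u - v, u - v⟫_ℂ = 0 :=
    cl_induct Λ (P := fun z => ⟪u - v, z⟫_ℂ = 0)
      (isClosed_eq (continuous_const.inner continuous_id) continuous_const)
      (fun y => by rw [inner_sub_left, h, sub_self]) (sub_mem hu hv)
  exact sub_eq_zero.1 (inner_self_eq_zero.1 h1)

/-- bounded sesquilinear forms relative to a linear map are given by operators -/
theorem exists_form (Λ : E →ₗ[ℂ] H) (B : E → E →ₗ[ℂ] ℂ)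
    (hadd : ∀ x x' y, B (x + x') y = B x y + B x' y)
    (hsm : ∀ (c : ℂ) x y, B (c • x) y = conj c * B x y)
    (hb : ∀ x y, ‖B x y‖ ≤ ‖Λ x‖ * ‖Λ y‖) :
    ∃ T : H →L[ℂ] H, (∀ x y, ⟪T (Λ x), Λ y⟫_ℂ = B x y) ∧
      (∀ z, T z ∈ (LinearMap.range Λ).topologicalClosure) ∧
      ∀ z, T ((LinearMap.range Λ).topologicalClosure.starProjection z) = T z := by
  set C := (LinearMap.range Λ).topologicalClosure with hC
  have hΛ : ∀ x, Λ x ∈ C := fun x => Submodule.le_topologicalClosure _ ⟨x, rfl⟩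
  choose κ hκ using fun x => exists_riesz Λ (B x) (hb x)
  have h1 : ∀ x y, ⟪C.starProjection (κ x), Λ y⟫_ℂ = B x y := fun x y => by
    rw [proj_inner isStarProjection_starProjection, C.starProjection_eq_self_iff.2 (hΛ y), hκ]
  have hm : ∀ x, C.starProjection (κ x) ∈ C := fun x => C.starProjection_apply_mem _
  let t : E →ₗ[ℂ] C :=
    { toFun := fun x => ⟨C.starProjection (κ x), hm x⟩
      map_add' := fun x x' => Subtype.ext (cl_ext Λ (hm _) (add_mem (hm _) (hm _)) fun y => by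
        rw [h1, hadd]
        exact ((inner_add_left _ _ _).trans (by rw [h1, h1])).symm)
      map_smul' := fun c x => Subtype.ext (cl_ext Λ (hm _) (C.smul_mem c (hm _)) fun y => by
        rw [h1, hsm]
        exact ((inner_smul_left _ _ _).trans (by rw [h1]; rfl)).symm) }
  let e : E →ₗ[ℂ] C := Λ.codRestrict C hΛ
  have hd : DenseRange e := by
    rw [DenseRange, dense_iff_closure_eq, Set.eq_univ_iff_forall]
    rintro ⟨z, hz⟩
    rw [closure_subtype]
    refine closure_mono ?_ hz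
    rintro _ ⟨x, rfl⟩
    exact ⟨e x, ⟨x, rfl⟩, rfl⟩
  have hn : ∀ x, ‖t x‖ ≤ 1 * ‖e x‖ := fun x => by
    change ‖C.starProjection (κ x)‖ ≤ 1 * ‖Λ x‖
    have h2 := cl_induct Λ (P := fun z => ‖⟪C.starProjection (κ x), z⟫_ℂ‖ ≤ ‖Λ x‖ * ‖z‖)
      (isClosed_le (continuous_const.inner continuous_id).norm (continuous_const.mul continuous_norm))
      (fun y => by rw [h1]; exact hb x y) (hm x)
    rw [inner_self_eq_norm_sq_to_K, norm_pow, RCLike.norm_ofReal, abs_norm, sq] at h2
    rw [one_mul]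
    rcases (norm_nonneg (C.starProjection (κ x))).eq_or_lt with h3 | h3
    · rw [← h3]; exact norm_nonneg _
    · exact le_of_mul_le_mul_right h2 h3
  haveI : CompleteSpace C := (Submodule.isClosed_topologicalClosure _).completeSpace_coe
  refine ⟨C.subtypeL ∘L t.extendOfNorm e ∘L C.orthogonalProjectionOnto, fun x y => ?_,
    fun z => Subtype.prop _, fun z => ?_⟩
  · have h2 : C.orthogonalProjectionOnto (Λ x) = e x :=
      Submodule.orthogonalProjectionOnto_mem_subspace_eq_self (K := C) ⟨Λ x, hΛ x⟩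
    rw [ContinuousLinearMap.comp_apply, ContinuousLinearMap.comp_apply, h2,
      LinearMap.extendOfNorm_eq hd ⟨1, hn⟩]
    exact h1 x y
  · have h2 : C.orthogonalProjectionOnto (C.starProjection z) = C.orthogonalProjectionOnto z :=
      Submodule.orthogonalProjectionOnto_mem_subspace_eq_self (K := C) (C.orthogonalProjectionOnto z)
    exact congrArg (fun w => C.subtypeL (t.extendOfNorm e w)) h2

theorem ex_sqrt {T : H →L[ℂ] H} (h : 0 ≤ T) : ∃ S : H →L[ℂ] H, IsSelfAdjoint S ∧ S * S = T ∧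
    ∀ A, Commute T A → Commute S A :=
  ⟨CFC.sqrt T, IsSelfAdjoint.of_nonneg (CFC.sqrt_nonneg T), CFC.sqrt_mul_sqrt_self T h,
    fun _ c => c.cfcₙ_nnreal _⟩

end Form

variable {H : Type u} [NormedAddCommGroup H] [InnerProductSpace ℂ H] [CompleteSpace H]
variable {M : VonNeumannAlgebra H} {ψ : (H →L[ℂ] H) →ₗ[ℂ] ℂ}

/-- `ψ (g* x* x g)` is dominated by a vector functional of the amplification -/
def Dm (M : VonNeumannAlgebra H) (ψ : (H →L[ℂ] H) →ₗ[ℂ] ℂ) (g : H →L[ℂ] H) : Prop :=
  ∃ V : EllTwo H, ∀ x ∈ M, (ψ (star (x * g) * (x * g))).re ≤ ‖amp x V‖ ^ 2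

theorem rn (hψ : PosOn M ψ) {g : H →L[ℂ] H} (hg : g ∈ M) (h : Dm M ψ g) :
    ∃ W : EllTwo H, ∀ x ∈ M, ψ (star g * (x * g)) = ⟪W, amp x W⟫_ℂ := by
  obtain ⟨V, h⟩ := h
  let E := M.toStarSubalgebra.toSubalgebra.toSubmodule
  let Λ : E →ₗ[ℂ] EllTwo H :=
    { toFun := fun x => amp x.1 V
      map_add' := fun _ _ => rfl
      map_smul' := fun _ _ => rfl }
  let B : E → E →ₗ[ℂ] ℂ := fun x =>
    { toFun := fun y => ψ (star (x.1 * g) * (y.1 * g))
      map_add' := fun y y' => by
        change ψ (_ * ((y.1 + y'.1) * g)) = _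
        rw [add_mul, mul_add, map_add]
      map_smul' := fun c y => by
        change ψ (_ * ((c • y.1) * g)) = _
        rw [smul_mul_assoc, mul_smul_comm, map_smul]
        rfl }
  have hB : ∀ x y : E, B x y = ψ (star (x.1 * g) * (y.1 * g)) := fun _ _ => rfl
  have hm : ∀ x : E, x.1 * g ∈ M := fun x => mul_mem (show x.1 ∈ M from x.2) hg
  have hmul : ∀ {a}, a ∈ M → ∀ x : E, a * x.1 ∈ E := fun {a} ha x =>
    show a * x.1 ∈ M from mul_mem ha (show x.1 ∈ M from x.2)
  obtain ⟨T, h1, h2, h3⟩ := exists_form Λ B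
    (fun x x' y => by
      change ψ (star ((x.1 + x'.1) * g) * _) = _
      rw [add_mul, star_add, add_mul, map_add]
      rfl)
    (fun c x y => by
      change ψ (star ((c • x.1) * g) * _) = _
      rw [smul_mul_assoc, star_smul, smul_mul_assoc, map_smul]
      rfl)
    (fun x y => by
      refine (sq_le_sq₀ (norm_nonneg _) (by positivity)).1 ?_
      rw [hB, mul_pow]
      exact (hψ.cauchy (hm y) (hm x)).trans (mul_le_mul (h _ x.2) (h _ y.2)
        (hψ _ (mul_mem (star_mem (hm y)) (hm y)) (star_mul_self_nonneg _)).1 (sq_nonneg _)))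
  set C := (LinearMap.range Λ).topologicalClosure with hC
  have hP : IsStarProjection C.starProjection := isStarProjection_starProjection
  have hPm : ∀ z, C.starProjection z ∈ C := fun z => C.starProjection_apply_mem z
  have hPT : ∀ z, C.starProjection (T z) = T z := fun z => C.starProjection_eq_self_iff.2 (h2 z)
  have s1 : ∀ u ∈ C, ∀ v ∈ C, ⟪T u, v⟫_ℂ = ⟪u, T v⟫_ℂ := fun u hu v hv =>
    cl_induct Λ (P := fun u => ⟪T u, v⟫_ℂ = ⟪u, T v⟫_ℂ)
      (isClosed_eq (T.continuous.inner continuous_const) (continuous_id.inner continuous_const))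
      (fun x => cl_induct Λ (P := fun v => ⟪T (Λ x), v⟫_ℂ = ⟪Λ x, T v⟫_ℂ)
        (isClosed_eq (continuous_const.inner continuous_id) (continuous_const.inner T.continuous))
        (fun y => by
          rw [← inner_conj_symm (Λ x), h1, h1, hB, hB,
            ← hψ.map_star (mul_mem (star_mem (hm y)) (hm x)), star_mul (star _), star_star]) hv) hu
  have s2 : IsSelfAdjoint T := by
    rw [ContinuousLinearMap.isSelfAdjoint_iff_isSymmetric]
    intro u v
    change ⟪T u, v⟫_ℂ = ⟪u, T v⟫_ℂ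
    rw [← hPT u, ← hPT v, proj_inner hP, ← proj_inner hP u, ← h3 u, ← h3 v]
    exact s1 _ (hPm u) _ (hPm v)
  have s3 : 0 ≤ T := nonneg_of_inner s2 fun z => by
    rw [← hPT z, ← proj_inner hP, ← h3 z]
    exact cl_induct Λ (P := fun u => 0 ≤ (⟪u, T u⟫_ℂ).re)
      (isClosed_le continuous_const
        (Complex.continuous_re.comp (continuous_id.inner T.continuous)))
      (fun x => by
        rw [← s1 _ (Submodule.le_topologicalClosure _ ⟨x, rfl⟩) _
          (Submodule.le_topologicalClosure _ ⟨x, rfl⟩), h1, hB]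
        exact (hψ _ (mul_mem (star_mem (hm x)) (hm x)) (star_mul_self_nonneg _)).1) (hPm z)
  have inv : ∀ a ∈ M, ∀ u ∈ C, amp a u ∈ C := fun a ha u hu =>
    cl_induct Λ (P := fun u => amp a u ∈ C)
      ((Submodule.isClosed_topologicalClosure _).preimage (amp a).continuous)
      (fun x => Submodule.le_topologicalClosure _ ⟨⟨a * x.1, hmul ha x⟩, rfl⟩) hu
  have s4 : ∀ a ∈ M, Commute T (amp a) := fun a ha => by
    have c1 := commute_starProjection C (inv a ha) (by rw [← amp_star]; exact inv _ (star_mem ha))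
    have c2 : ∀ u ∈ C, T (amp a u) = amp a (T u) := fun u hu =>
      cl_induct Λ (P := fun u => T (amp a u) = amp a (T u))
        (isClosed_eq (T.continuous.comp (amp a).continuous) ((amp a).continuous.comp T.continuous))
        (fun x => cl_ext Λ (h2 _) (inv a ha _ (h2 _)) fun y => by
          have e1 := h1 ⟨a * x.1, hmul ha x⟩ y
          have e2 := h1 x ⟨star a * y.1, hmul (star_mem ha) y⟩
          have e3 : ⟪amp a (T (Λ x)), Λ y⟫_ℂ = ⟪T (Λ x), amp (star a) (Λ y)⟫_ℂ := by
            rw [← star_apply_inner, amp_star, star_star]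
          refine e1.trans (Eq.trans ?_ (e2.symm.trans e3.symm))
          simp only [hB, star_mul, mul_assoc]) hu
    ext1 z
    change T (amp a z) = amp a (T z)
    rw [← h3, ← h3 z, ← c2 _ (hPm z)]
    exact congrArg T (DFunLike.congr_fun c1 z).symm
  obtain ⟨S, sa, e0, c⟩ := ex_sqrt s3
  refine ⟨S V, fun x hx => ?_⟩
  have e1 : amp x (S V) = S (amp x V) := (DFunLike.congr_fun (c _ (s4 x hx)).eq V).symm
  have e2 : S (S V) = T V := DFunLike.congr_fun e0 V
  rw [e1, ← star_apply_inner, sa.star_eq, e2]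
  have e3 := h1 ⟨1, one_mem M⟩ ⟨x, hx⟩
  rw [hB, one_mul] at e3
  exact e3.symm

end Vale.Agent.P132N34
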