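import Vale.Agent.P132.WeightDefs

/-!
# P132: states, normal states and the predual
-/

open scoped InnerProductSpace ComplexOrder

namespace Vale.Agent.P132N34

universe u

variable {H : Type u} [NormedAddCommGroup H] [InnerProductSpace ℂ H] [CompleteSpace H]

/-- `φ` is a state of `M`: a positive linear functional on `M` with `φ 1 = 1` (the values of `φ`
outside `M` are irrelevant). -/
structure IsState (M : VonNeumannAlgebra H) (φ : (H →L[ℂ] H) → ℂ) : Prop where
  add : ∀ x ∈ M, ∀ y ∈ M, φ (x + y) = φ x + φ y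
  smul : ∀ c : ℂ, ∀ x ∈ M, φ (c • x) = c * φ x
  nonneg : ∀ x ∈ M, 0 ≤ x → 0 ≤ φ x
  one : φ 1 = 1

/-- `φ` is normal: it preserves the suprema of the nonempty upwards directed subsets of the positive
cone `M₊` (the suprema of the bounded increasing nets of positive elements). -/
def IsNormal (M : VonNeumannAlgebra H) (φ : (H →L[ℂ] H) → ℂ) : Prop :=
  ∀ D : Set (H →L[ℂ] H), (∀ x ∈ D, x ∈ M ∧ 0 ≤ x) → D.Nonempty → DirectedOn (· ≤ ·) D →
    ∀ x ∈ M, IsLUB D x → IsLUB (φ '' D) (φ x)

/-- The `σ`-weak (ultraweak) topology of `B(H)`: the weakest topology for which the functionals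
`x ↦ ∑ ⟨x (η n), ξ n⟩` are continuous, for all square summable sequences `ξ`, `η` in `H`. -/
@[reducible] noncomputable def sigmaWeak (H : Type u) [NormedAddCommGroup H] [InnerProductSpace ℂ H] :
    TopologicalSpace (H →L[ℂ] H) :=
  ⨅ (ξ : lp (fun _ : ℕ => H) 2) (η : lp (fun _ : ℕ => H) 2),
    TopologicalSpace.induced (fun x => ∑' n, ⟪ξ n, x (η n)⟫_ℂ) inferInstance

/-- `φ` is `σ`-weakly continuous on `M`; the predual `M_*` is the space of the `σ`-weakly continuous
linear functionals on `M`. -/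
def IsSigmaWeaklyContinuous (M : VonNeumannAlgebra H) (φ : (H →L[ℂ] H) → ℂ) : Prop :=
  @ContinuousOn _ _ (sigmaWeak H) _ φ M

end Vale.Agent.P132N34
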