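import Vale.Agent.P132N34.D
import Vale.Agent.P132N34.Pub
import Vale.Agent.P132.Bd8.B6

/-! The three descriptions of normal states. -/

set_option linter.all false

namespace Vale.Agent.P132N34

open Filter Topology Vale.Agent.P132
open scoped ComplexOrder InnerProductSpace ComplexConjugate

universe u

variable {H : Type u} [NormedAddCommGroup H] [InnerProductSpace ℂ H] [CompleteSpace H]
variable {M : VonNeumannAlgebra H} {φ : (H →L[ℂ] H) → ℂ}

theorem IsState.mono (h : IsState M φ) {x y : H →L[ℂ] H} (hx : x ∈ M) (hy : y ∈ M) (e : x ≤ y) :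
    φ x ≤ φ y := by
  have h1 := h.add x hx (y - x) (sub_mem hy hx)
  rw [add_sub_cancel] at h1
  rw [h1]
  exact le_add_of_nonneg_right (h.nonneg _ (sub_mem hy hx) (sub_nonneg.2 e))

theorem IsState.normal_iff (h : IsState M φ) : IsNormal M φ ↔
    ∀ D : Set (H →L[ℂ] H), (∀ x ∈ D, x ∈ M ∧ 0 ≤ x) → D.Nonempty → DirectedOn (· ≤ ·) D →
      ∀ x ∈ M, IsLUB D x → ∀ ε > 0, ∃ d ∈ D, (φ x).re - ε < (φ d).re := by
  refine forall₄_congr fun D hD hne hdir => forall₃_congr fun x hx hl => ⟨fun a ε hε => ?_,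
    fun a => ⟨?_, fun z hz => ?_⟩⟩
  · by_contra hc
    push Not at hc
    have h1 : φ x - ε ∈ upperBounds (φ '' D) := by
      rintro _ ⟨d, hd, rfl⟩
      refine Complex.le_def.2 ⟨by simpa using hc d hd, ?_⟩
      simpa using (Complex.le_def.1 (a.1 ⟨d, hd, rfl⟩)).2
    have h2 := (Complex.le_def.1 (a.2 h1)).1
    simp only [Complex.sub_re, Complex.ofReal_re] at h2
    linarith only [h2, hε]
  · rintro _ ⟨d, hd, rfl⟩
    exact h.mono (hD d hd).1 hx (hl.1 hd)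
  · obtain ⟨d0, hd0⟩ := hne
    refine Complex.le_def.2 ⟨le_of_forall_pos_le_add fun ε hε => ?_, ?_⟩
    · obtain ⟨d, hd, h1⟩ := a ε hε
      have h2 := (Complex.le_def.1 (hz ⟨d, hd, rfl⟩)).1
      linarith only [h1, h2]
    · exact (Complex.le_def.1 (h.mono (hD d0 hd0).1 hx (hl.1 hd0))).2.symm.trans
        (Complex.le_def.1 (hz ⟨d0, hd0, rfl⟩)).2

/-- normal states are given by series of vector functionals -/
theorem IsState.series (h : IsState M φ) (hn : IsNormal M φ) : IsNormalState M φ := by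
  let E := M.toStarSubalgebra.toSubalgebra.toSubmodule
  let f : E →ₗ[ℂ] ℂ :=
    { toFun := fun x => φ x.1
      map_add' := fun x y => h.add _ x.2 _ y.2
      map_smul' := fun c x => h.smul c _ x.2 }
  obtain ⟨ψ, hψ⟩ := LinearMap.exists_extend f
  have e : ∀ x ∈ M, ψ x = φ x := fun x hx => DFunLike.congr_fun hψ ⟨x, hx⟩
  have hp : PosOn M ψ := fun x hx h0 => by
    have := Complex.le_def.1 (h.nonneg x hx h0)
    rw [e x hx]
    exact ⟨this.1, this.2.symm⟩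
  obtain ⟨W, hW⟩ := exists_vec hp fun D hne hdir hD g hg ε hε => by
    obtain ⟨g', hM, -, hg', -⟩ := exists_sup_proj (M := M) hne hdir hD
    obtain rfl := hg.unique hg'
    obtain ⟨d, hd, h1⟩ := h.normal_iff.1 hn D (fun x hx => ⟨(hD x hx).1, (hD x hx).2.nonneg⟩)
      hne hdir g hM hg ε hε
    exact ⟨d, hd, by rwa [e _ hM, e _ (hD d hd).1]⟩
  refine ⟨W, ?_, fun x hx => ?_⟩
  · have h1 := congrArg Complex.re (hW 1 (one_mem M))
    rw [e _ (one_mem M), h.one, amp_one, ContinuousLinearMap.one_apply, inner_self_re,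
      Complex.one_re] at h1
    rw [h1]
    exact L2_norm_sq W
  · rw [← e x hx, hW x hx]
    exact lp.hasSum_inner (𝕜 := ℂ) W (amp x W)

theorem tsum_eq (ξ η : EllTwo H) (x : H →L[ℂ] H) :
    ∑' n, ⟪ξ n, x (η n)⟫_ℂ = ⟪ξ, amp x η⟫_ℂ := (lp.hasSum_inner (𝕜 := ℂ) ξ (amp x η)).tsum_eq

theorem tendsto_sw {l : Filter (H →L[ℂ] H)} {x : H →L[ℂ] H} : l ≤ @nhds _ (sigmaWeak H) x ↔
    ∀ ξ η : EllTwo H, Tendsto (fun y => ⟪ξ, amp y η⟫_ℂ) l (𝓝 ⟪ξ, amp x η⟫_ℂ) := by
  simp only [sigmaWeak, nhds_iInf, le_iInf_iff, nhds_induced, ← Filter.map_le_iff_le_comap,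
    tsum_eq, Tendsto]

theorem cont_of_series (h : IsNormalState M φ) : IsSigmaWeaklyContinuous M φ := by
  obtain ⟨η, h1, h2⟩ := h
  obtain ⟨W, hW⟩ : ∃ W : EllTwo H, ∀ n, W n = η n :=
    ⟨⟨η, (memℓp_two_iff _).2 h1.summable⟩, fun _ => rfl⟩
  have e : ∀ x ∈ M, φ x = ⟪W, amp x W⟫_ℂ := fun x hx => by
    rw [← tsum_eq, ← (h2 x hx).tsum_eq]
    simp only [hW]
  intro x hx
  have h3 := tendsto_sw.1 (@nhdsWithin_le_nhds _ (sigmaWeak H) x M) W W
  rw [← e x hx] at h3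
  exact h3.congr' (mem_of_superset (@self_mem_nhdsWithin _ (sigmaWeak H) x M)
    fun y hy => (e y hy).symm)

theorem amp_lub {D : Set (H →L[ℂ] H)} (h0 : ∀ d ∈ D, 0 ≤ d) (hne : D.Nonempty)
    (hdir : DirectedOn (· ≤ ·) D) {x : H →L[ℂ] H} (hx : IsLUB D x) (η : EllTwo H) {ε : ℝ}
    (hε : 0 < ε) : ∃ d ∈ D, ∀ y ∈ D, d ≤ y → ‖amp x η - amp y η‖ ^ 2 ≤ ‖x‖ * ε := by
  have hs : ∀ y : H →L[ℂ] H, HasSum (fun i => (⟪η i, y (η i)⟫_ℂ).re) (⟪η, amp y η⟫_ℂ).re :=
    fun y => Complex.hasSum_re (lp.hasSum_inner (𝕜 := ℂ) η (amp y η))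
  obtain ⟨s, h1⟩ := ((hs x).eventually (lt_mem_nhds (show (⟪η, amp x η⟫_ℂ).re - ε / 2 <
    (⟪η, amp x η⟫_ℂ).re by linarith))).exists
  obtain ⟨d, hd, hd2⟩ := sw_lub_finset h0 hne hdir hx s η
    (show 0 < ε / (2 * ((s.card : ℝ) + 1)) by positivity)
  refine ⟨d, hd, fun y hy hdy => ?_⟩
  have h2 : ∑ i ∈ s, (⟪η i, y (η i)⟫_ℂ).re ≤ (⟪η, amp y η⟫_ℂ).re :=
    sum_le_hasSum s (fun i _ => sw_re_nonneg (h0 y hy) _) (hs y)
  have h3 : ∑ i ∈ s, ((⟪η i, x (η i)⟫_ℂ).re - ε / (2 * ((s.card : ℝ) + 1))) ≤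
      ∑ i ∈ s, (⟪η i, y (η i)⟫_ℂ).re :=
    Finset.sum_le_sum fun i hi => (hd2 i hi).le.trans (sw_re_mono hdy _)
  rw [Finset.sum_sub_distrib, Finset.sum_const, nsmul_eq_mul] at h3
  have h4 : (s.card : ℝ) * (ε / (2 * ((s.card : ℝ) + 1))) ≤ ε / 2 := by
    rw [← mul_div_assoc, div_le_div_iff₀ (by positivity) (by norm_num)]
    linarith only [hε]
  have p0 : 0 ≤ x - y := sub_nonneg.2 (hx.1 hy)
  have h5 := hasSum_le (fun i => sw_norm_sq_le p0 (η i)) (L2_norm_sq (amp (x - y) η))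
    ((hs (x - y)).mul_left ‖x - y‖)
  have e : amp (x - y) η = amp x η - amp y η := by
    rw [eq_sub_iff_add_eq, ← ContinuousLinearMap.add_apply, ← amp_add, sub_add_cancel]
  rw [e, inner_sub_right, Complex.sub_re] at h5
  exact h5.trans (mul_le_mul (CStarAlgebra.norm_le_norm_of_nonneg_of_le p0
    (sub_le_self _ (h0 y hy))) (by linarith only [h1, h2, h3, h4])
    (by rw [← Complex.sub_re, ← inner_sub_right, ← e]
        exact (hs (x - y)).nonneg fun i => sw_re_nonneg p0 _) (norm_nonneg _))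

theorem IsState.normal_of_cont (h : IsState M φ) (hc : IsSigmaWeaklyContinuous M φ) :
    IsNormal M φ := h.normal_iff.2 fun D hD hne hdir x hx hl ε hε => by
  haveI : Nonempty D := hne.to_subtype
  haveI : IsDirectedOrder D := hdir.isDirectedOrder
  have h1 : map (Subtype.val : D → H →L[ℂ] H) atTop ≤ @nhdsWithin _ (sigmaWeak H) x M := by
    refine le_inf (tendsto_sw.2 fun ξ η => ?_)
      (le_principal_iff.2 (mem_map.2 (univ_mem' fun d => (hD _ d.2).1)))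
    refine Tendsto.inner tendsto_const_nhds (Metric.tendsto_nhds.2 fun δ hδ => ?_)
    obtain ⟨d, hd, h2⟩ := amp_lub (fun d hd => (hD d hd).2) hne hdir hl η
      (show 0 < δ ^ 2 / (‖x‖ + 1) by positivity)
    refine mem_map.2 (mem_of_superset (mem_atTop (⟨d, hd⟩ : D)) fun y hy => ?_)
    change dist (amp y.1 η) (amp x η) < δ
    rw [dist_comm, dist_eq_norm]
    refine lt_of_pow_lt_pow_left₀ 2 hδ.le ((h2 y y.2 hy).trans_lt ?_)
    rw [← mul_div_assoc, div_lt_iff₀ (by positivity)]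
    nlinarith only [hδ, norm_nonneg x]
  have h2 := (Complex.continuous_re.tendsto _).comp ((hc x hx).mono_left h1)
  obtain ⟨d, hd⟩ := (eventually_map.1 (h2.eventually
    (lt_mem_nhds (show (φ x).re - ε < (φ x).re by linarith)))).exists
  exact ⟨d, d.2, hd⟩

theorem IsState.normal_of_series (h : IsState M φ) (hs : IsNormalState M φ) : IsNormal M φ :=
  h.normal_of_cont (cont_of_series hs)

theorem state_of_series (h : IsNormalState M φ) : IsState M φ where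
  add _ hx _ hy := sw_map_add h hx hy
  smul c _ hx := sw_map_smul h c hx
  nonneg x hx h0 := by
    obtain ⟨η, -, hη⟩ := h
    exact (hη x hx).nonneg fun i =>
      ((ContinuousLinearMap.nonneg_iff_isPositive x).1 h0).inner_nonneg_right _
  one := by
    obtain ⟨η, h1, hη⟩ := h
    refine (hη 1 (one_mem M)).unique ?_
    have h2 := Complex.ofRealCLM.hasSum h1
    simpa [inner_self_eq_norm_sq_to_K] using h2

end Vale.Agent.P132N34
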